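import Vale.Agent.P181.RH.Defs

/-!
# P181, RH: [NUM] the final inequality (helper237)
-/

set_option autoImplicit false

namespace Vale.Agent.P181.RH.H237

theorem pow_four_le (k : ℕ) (hk : 16 ≤ k) : k ^ 4 ≤ 2 ^ k := by
  induction k, hk using Nat.le_induction with
  | base => norm_num
  | succ k hk ih =>
    obtain ⟨j, rfl⟩ := Nat.exists_eq_add_of_le hk
    calc (16 + j + 1) ^ 4 ≤ (16 + j + 1) ^ 4 +
          (j ^ 4 + 60 * j ^ 3 + 1338 * j ^ 2 + 13116 * j + 47551) := Nat.le_add_right _ _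
      _ = 2 * (16 + j) ^ 4 := by ring
      _ ≤ 2 * 2 ^ (16 + j) := Nat.mul_le_mul_left _ ih
      _ = 2 ^ (16 + j + 1) := by ring

/-- The left side, up to the last factor. -/
theorem left_le (a b X n U G : ℕ) (hX : 2 ≤ X) (ha : 16 ≤ a) (hn : 1 ≤ n) (haU : a ≤ U)
    (hub : U + 2 ≤ b) (hbu : b ≤ 2 * (U + 2)) (hbX : b ≤ X * a) (hG : a ^ 2 ≤ 4 * X * G) :
    (a + b).choose a * 2 ^ (n * a) * ((2 * a * b) ^ (U + 1) *
      ((U + 2).factorial * U.factorial)) ≤ X ^ (17 * (n * U)) * G ^ (2 * U) := by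
  have hX0 : 0 < X := by omega
  have c1 : (a + b).choose a ≤ X ^ (4 * U) := by
    calc (a + b).choose a ≤ 2 ^ (a + b) := Nat.choose_le_two_pow _ _
      _ ≤ X ^ (a + b) := Nat.pow_le_pow_left hX _
      _ ≤ X ^ (4 * U) := Nat.pow_le_pow_right hX0 (by omega)
  have c2 : 2 ^ (n * a) ≤ X ^ (n * U) := by
    calc 2 ^ (n * a) ≤ X ^ (n * a) := Nat.pow_le_pow_left hX _
      _ ≤ X ^ (n * U) := Nat.pow_le_pow_right hX0 (Nat.mul_le_mul_left _ haU)
  have c3 : (2 * a * b) ^ (U + 1) ≤ (X ^ 2 * a ^ 2) ^ (U + 1) := by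
    refine Nat.pow_le_pow_left ?_ _
    calc 2 * a * b ≤ X * a * (X * a) := Nat.mul_le_mul (Nat.mul_le_mul_right _ hX) hbX
      _ = X ^ 2 * a ^ 2 := by ring
  have c4 : (U + 2).factorial ≤ (X * a) ^ (U + 2) :=
    (Nat.factorial_le_pow _).trans (Nat.pow_le_pow_left (by omega) _)
  have c5 : U.factorial ≤ (X * a) ^ U :=
    (Nat.factorial_le_pow _).trans (Nat.pow_le_pow_left (by omega) _)
  have c6 : a ^ 4 ≤ X ^ U := by
    calc a ^ 4 ≤ U ^ 4 := Nat.pow_le_pow_left haU _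
      _ ≤ 2 ^ U := pow_four_le U (by omega)
      _ ≤ X ^ U := Nat.pow_le_pow_left hX _
  have c7 : (a ^ 4) ^ U ≤ X ^ (6 * U) * G ^ (2 * U) := by
    have h1 : a ^ 4 ≤ X ^ 6 * G ^ 2 := by
      calc a ^ 4 = (a ^ 2) ^ 2 := by ring
        _ ≤ (4 * X * G) ^ 2 := Nat.pow_le_pow_left hG _
        _ = 2 ^ 4 * (X ^ 2 * G ^ 2) := by ring
        _ ≤ X ^ 4 * (X ^ 2 * G ^ 2) := Nat.mul_le_mul_right _ (Nat.pow_le_pow_left hX _)
        _ = X ^ 6 * G ^ 2 := by ring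
    calc (a ^ 4) ^ U ≤ (X ^ 6 * G ^ 2) ^ U := Nat.pow_le_pow_left h1 _
      _ = X ^ (6 * U) * G ^ (2 * U) := by rw [mul_pow, ← pow_mul, ← pow_mul]
  have hU : U ≤ n * U := Nat.le_mul_of_pos_left _ hn
  calc (a + b).choose a * 2 ^ (n * a) * ((2 * a * b) ^ (U + 1) *
        ((U + 2).factorial * U.factorial))
      ≤ X ^ (4 * U) * X ^ (n * U) * ((X ^ 2 * a ^ 2) ^ (U + 1) *
        ((X * a) ^ (U + 2) * (X * a) ^ U)) := by gcongr
    _ = X ^ (4 * U + n * U + (4 * U + 4)) * (a ^ 4 * (a ^ 4) ^ U) := by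
        simp only [mul_pow, pow_add, pow_succ, pow_zero]
        ring
    _ ≤ X ^ (4 * U + n * U + (4 * U + 4)) * (X ^ U * (X ^ (6 * U) * G ^ (2 * U))) := by gcongr
    _ = X ^ (4 * U + n * U + (4 * U + 4) + (U + 6 * U)) * G ^ (2 * U) := by
        rw [pow_add X (4 * U + n * U + (4 * U + 4)), pow_add X U]
        ring
    _ ≤ X ^ (17 * (n * U)) * G ^ (2 * U) :=
        Nat.mul_le_mul_right _ (Nat.pow_le_pow_right hX0 (by omega))

/-- **[NUM]** -/
theorem numRH : NumRH := by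
  intro δ hδ hδ1
  obtain ⟨L, hL⟩ : ∃ L : ℕ, 68 / δ ≤ L := exists_nat_ge _
  refine ⟨L + 2, 2, fun a b X m u y G hX hXa hu hub hbu hbX hm hmX hy hG => ?_⟩
  have hX0 : 0 < X := by omega
  have ha0 : (0 : ℝ) ≤ a := Nat.cast_nonneg a
  have hu2 : 2 ≤ u := by
    have h1 : (2 : ℝ) ≤ u := le_trans (by nlinarith) hu
    exact_mod_cast h1
  obtain ⟨U, rfl⟩ : ∃ U, u = U + 2 := ⟨u - 2, by omega⟩
  obtain ⟨n, rfl⟩ : ∃ n, m = n + 2 := ⟨m - 2, by omega⟩
  have hn : 1 ≤ n := by omega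
  have e1 : U + 2 - 1 = U + 1 := by omega
  have e2 : U + 2 - 2 = U := by omega
  have e3 : n + 2 - 2 = n := by omega
  rw [e1, e2, e3]
  have hUa : (1 + δ / 2) * (a : ℝ) ≤ U := by
    push_cast at hu
    linarith
  have haU : a ≤ U := by
    have h1 : (a : ℝ) ≤ U := le_trans (by nlinarith) hUa
    exact_mod_cast h1
  have haX : X ^ 2 ≤ a := le_trans (Nat.pow_le_pow_right hX0 (by norm_num)) hXa
  have ha16 : 2 ^ 100 ≤ a := le_trans (Nat.pow_le_pow_left hX _) hXa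
  have ha : 16 ≤ a := le_trans (by norm_num) ha16
  have hG1 : 1 ≤ G := by
    by_contra h
    have h0 : G = 0 := by omega
    rw [h0] at hG
    have h1 : X * X * 16 ≤ a * a := Nat.mul_le_mul (by rw [← sq]; exact haX) ha
    have h2 : 1 * X ≤ X * X := Nat.mul_le_mul_right _ hX0
    have h3 : a ^ 2 = a * a := sq a
    omega
  have hG2 : a ^ 2 ≤ 4 * X * G := by
    calc a ^ 2 ≤ 2 * X * (G + 1) := hG
      _ ≤ 2 * X * (2 * G) := Nat.mul_le_mul_left _ (by omega)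
      _ = 4 * X * G := by ring
  have key := left_le a b X n U G hX ha hn haU (by omega) (by omega) hbX hG2
  have keyR : (((a + b).choose a * 2 ^ (n * a) * ((2 * a * b) ^ (U + 1) *
      ((U + 2).factorial * U.factorial)) : ℕ) : ℝ) ≤
      ((X ^ (17 * (n * U)) * G ^ (2 * U) : ℕ) : ℝ) := by exact_mod_cast key
  refine keyR.trans ?_
  have hU0 : (0 : ℝ) < U := by
    have : 0 < U := by omega
    exact_mod_cast this
  have hXr : (1 : ℝ) ≤ X := by exact_mod_cast hX0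
  have hb1 : (X : ℝ) ^ L ≤ 1 + (y : ℝ) / U := by
    have h1 : X ^ L * U ≤ y := by
      have h2 : 2 * (X ^ L * U) ≤ 2 * y := by
        calc 2 * (X ^ L * U) ≤ X * (X ^ L * (X * a)) :=
              Nat.mul_le_mul hX (Nat.mul_le_mul_left _ (by omega))
          _ = X ^ (L + 2) * a := by ring
          _ ≤ 2 * y := hy
      omega
    have h3 : (X : ℝ) ^ L * U ≤ y := by exact_mod_cast h1
    have h4 : (X : ℝ) ^ L ≤ (y : ℝ) / U := by
      rw [le_div_iff₀ hU0]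
      exact h3
    linarith
  have hexp : 17 * (n * U) ≤ L * (n * (U - a)) := by
    have h1 : δ * (U : ℝ) ≤ 4 * ((U : ℝ) - a) := by
      have g1 : (4 - δ) * ((1 + δ / 2) * (a : ℝ)) ≤ (4 - δ) * U :=
        mul_le_mul_of_nonneg_left hUa (by linarith)
      have g2 : 0 ≤ (a : ℝ) * (δ * (1 - δ / 2)) :=
        mul_nonneg ha0 (mul_nonneg hδ.le (by linarith))
      have g3 : (4 - δ) * ((1 + δ / 2) * (a : ℝ)) = 4 * a + (a : ℝ) * (δ * (1 - δ / 2)) := by ring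
      linarith
    have h2 : 17 * (U : ℝ) ≤ L * ((U : ℝ) - a) := by
      have h3 : 0 ≤ (U : ℝ) - a := by
        have : (a : ℝ) ≤ U := by exact_mod_cast haU
        linarith
      have h4 : 68 / δ * ((U : ℝ) - a) ≤ L * ((U : ℝ) - a) := mul_le_mul_of_nonneg_right hL h3
      have h5 : 17 * (U : ℝ) ≤ 68 / δ * ((U : ℝ) - a) := by
        have h6 : 17 * (U : ℝ) = 17 / δ * (δ * U) := by
          field_simp
        rw [h6]
        calc 17 / δ * (δ * (U : ℝ)) ≤ 17 / δ * (4 * ((U : ℝ) - a)) :=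
              mul_le_mul_of_nonneg_left h1 (by positivity)
          _ = 68 / δ * ((U : ℝ) - a) := by ring
      exact h5.trans h4
    have h7 : 17 * U ≤ L * (U - a) := by
      have h8 : ((17 * U : ℕ) : ℝ) ≤ ((L * (U - a) : ℕ) : ℝ) := by
        push_cast [Nat.cast_sub haU]
        exact h2
      exact_mod_cast h8
    calc 17 * (n * U) = n * (17 * U) := by ring
      _ ≤ n * (L * (U - a)) := Nat.mul_le_mul_left _ h7
      _ = L * (n * (U - a)) := by ring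
  push_cast
  rw [mul_comm]
  refine mul_le_mul_of_nonneg_left ?_ (by positivity)
  calc (X : ℝ) ^ (17 * (n * U)) ≤ (X : ℝ) ^ (L * (n * (U - a))) :=
        pow_le_pow_right₀ hXr hexp
    _ = ((X : ℝ) ^ L) ^ (n * (U - a)) := by rw [pow_mul]
    _ ≤ (1 + (y : ℝ) / U) ^ (n * (U - a)) := pow_le_pow_left₀ (by positivity) hb1 _

end Vale.Agent.P181.RH.H237
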