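import Vale.Agent.P181.RH.UDefs
import Vale.Agent.P181.RH.H237.Num

/-!
# P181, RHU: [NUMU] the final inequality with explicit constants (helper237)
-/

set_option autoImplicit false

namespace Vale.Agent.P181.RH.H237

/-- **[NUMU]** -/
theorem numRHU : NumRHU := by
  intro δ K a b X m u y G hδ hδ1 hK hX hXa hu hub hbu hbX hm hmX hy hG
  have hpos : 0 < 68 / δ := by positivity
  obtain ⟨L, rfl⟩ : ∃ L, K = L + 2 := by
    have h1 : (2 : ℝ) ≤ K := by linarith
    have h2 : 2 ≤ K := by exact_mod_cast h1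
    exact ⟨K - 2, by omega⟩
  have hL : 68 / δ ≤ L := by
    push_cast at hK
    linarith
  have hX0 : 0 < X := by omega
  have ha0 : (0 : ℝ) ≤ a := Nat.cast_nonneg a
  have hu2 : 2 ≤ u := by
    have h1 : (2 : ℝ) ≤ u := le_trans (by nlinarith) hu
    exact_mod_cast h1
  obtain ⟨U, rfl⟩ : ∃ U, u = U + 2 := ⟨u - 2, by omega⟩
  obtain ⟨n, rfl⟩ : ∃ n, m = n + 2 := ⟨m - 2, by omega⟩
  have hn : 1 ≤ n := by omega
  have e1 : U + 2 - 1 = U + 1 := by omega
  have e2 : U + 2 - 2 = U := by omega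
  have e3 : n + 2 - 2 = n := by omega
  rw [e1, e2, e3]
  have hUa : (1 + δ / 2) * (a : ℝ) ≤ U := by
    push_cast at hu
    linarith
  have haU : a ≤ U := by
    have h1 : (a : ℝ) ≤ U := le_trans (by nlinarith) hUa
    exact_mod_cast h1
  have haX : X ^ 2 ≤ a := le_trans (Nat.pow_le_pow_right hX0 (by norm_num)) hXa
  have ha16 : 2 ^ 100 ≤ a := le_trans (Nat.pow_le_pow_left hX _) hXa
  have ha : 16 ≤ a := le_trans (by norm_num) ha16
  have hG1 : 1 ≤ G := by
    by_contra h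
    have h0 : G = 0 := by omega
    rw [h0] at hG
    have h1 : X * X * 16 ≤ a * a := Nat.mul_le_mul (by rw [← sq]; exact haX) ha
    have h2 : 1 * X ≤ X * X := Nat.mul_le_mul_right _ hX0
    have h3 : a ^ 2 = a * a := sq a
    omega
  have hG2 : a ^ 2 ≤ 4 * X * G := by
    calc a ^ 2 ≤ 2 * X * (G + 1) := hG
      _ ≤ 2 * X * (2 * G) := Nat.mul_le_mul_left _ (by omega)
      _ = 4 * X * G := by ring
  have key := left_le a b X n U G hX ha hn haU (by omega) (by omega) hbX hG2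
  have keyR : (((a + b).choose a * 2 ^ (n * a) * ((2 * a * b) ^ (U + 1) *
      ((U + 2).factorial * U.factorial)) : ℕ) : ℝ) ≤
      ((X ^ (17 * (n * U)) * G ^ (2 * U) : ℕ) : ℝ) := by exact_mod_cast key
  refine keyR.trans ?_
  have hU0 : (0 : ℝ) < U := by
    have : 0 < U := by omega
    exact_mod_cast this
  have hXr : (1 : ℝ) ≤ X := by exact_mod_cast hX0
  have hb1 : (X : ℝ) ^ L ≤ 1 + (y : ℝ) / U := by
    have h1 : X ^ L * U ≤ y := by
      have h2 : 2 * (X ^ L * U) ≤ 2 * y := by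
        calc 2 * (X ^ L * U) ≤ X * (X ^ L * (X * a)) :=
              Nat.mul_le_mul hX (Nat.mul_le_mul_left _ (by omega))
          _ = X ^ (L + 2) * a := by ring
          _ ≤ 2 * y := hy
      omega
    have h3 : (X : ℝ) ^ L * U ≤ y := by exact_mod_cast h1
    have h4 : (X : ℝ) ^ L ≤ (y : ℝ) / U := by
      rw [le_div_iff₀ hU0]
      exact h3
    linarith
  have hexp : 17 * (n * U) ≤ L * (n * (U - a)) := by
    have h1 : δ * (U : ℝ) ≤ 4 * ((U : ℝ) - a) := by
      have g1 : (4 - δ) * ((1 + δ / 2) * (a : ℝ)) ≤ (4 - δ) * U :=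
        mul_le_mul_of_nonneg_left hUa (by linarith)
      have g2 : 0 ≤ (a : ℝ) * (δ * (1 - δ / 2)) :=
        mul_nonneg ha0 (mul_nonneg hδ.le (by linarith))
      have g3 : (4 - δ) * ((1 + δ / 2) * (a : ℝ)) = 4 * a + (a : ℝ) * (δ * (1 - δ / 2)) := by ring
      linarith
    have h2 : 17 * (U : ℝ) ≤ L * ((U : ℝ) - a) := by
      have h3 : 0 ≤ (U : ℝ) - a := by
        have : (a : ℝ) ≤ U := by exact_mod_cast haU
        linarith
      have h4 : 68 / δ * ((U : ℝ) - a) ≤ L * ((U : ℝ) - a) := mul_le_mul_of_nonneg_right hL h3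
      have h5 : 17 * (U : ℝ) ≤ 68 / δ * ((U : ℝ) - a) := by
        have h6 : 17 * (U : ℝ) = 17 / δ * (δ * U) := by
          field_simp
        rw [h6]
        calc 17 / δ * (δ * (U : ℝ)) ≤ 17 / δ * (4 * ((U : ℝ) - a)) :=
              mul_le_mul_of_nonneg_left h1 (by positivity)
          _ = 68 / δ * ((U : ℝ) - a) := by ring
      exact h5.trans h4
    have h7 : 17 * U ≤ L * (U - a) := by
      have h8 : ((17 * U : ℕ) : ℝ) ≤ ((L * (U - a) : ℕ) : ℝ) := by
        push_cast [Nat.cast_sub haU]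
        exact h2
      exact_mod_cast h8
    calc 17 * (n * U) = n * (17 * U) := by ring
      _ ≤ n * (L * (U - a)) := Nat.mul_le_mul_left _ h7
      _ = L * (n * (U - a)) := by ring
  push_cast
  rw [mul_comm]
  refine mul_le_mul_of_nonneg_left ?_ (by positivity)
  calc (X : ℝ) ^ (17 * (n * U)) ≤ (X : ℝ) ^ (L * (n * (U - a))) :=
        pow_le_pow_right₀ hXr hexp
    _ = ((X : ℝ) ^ L) ^ (n * (U - a)) := by rw [pow_mul]
    _ ≤ (1 + (y : ℝ) / U) ^ (n * (U - a)) := pow_le_pow_left₀ (by positivity) hb1 _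

end Vale.Agent.P181.RH.H237
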