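import Vale.Agent.P181.RG.H460.Peak

/-!
# P181, RH [PEAK]: every strictly decreasing family of sizes (helper237, after helper460)
-/

set_option autoImplicit false

namespace Vale.Agent.P181.RH.H237

open Finset Vale.Agent.P181.RG Vale.Agent.P181.RG.H460

/-- **[PEAK]** only the classes are independent sets of their sizes. `N x y`: the letters `x`, `y`
are together in some column. -/
theorem peak (u m T g : ℕ) (f : Fin m → ℕ) (grp : Fin u → Fin g)
    (N : Lt u m f → Lt u m f → Prop) (hf : ∀ r r' : Fin m, r < r' → f r' < f r)
    (hT : g + 1 ≤ T) (hTf : ∀ r, T ≤ f r) (hsym : ∀ x y, N x y → N y x)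
    (hcl : ∀ x y : Σ r : Fin m, Fin (f r), x.1 ≠ y.1 → N (Sum.inr x) (Sum.inr y))
    (hfr : ∀ i j : Fin u, i ≠ j → grp i = grp j → N (Sum.inl i) (Sum.inl j))
    (hA : ∀ (i : Fin u) (r : Fin m), ∃ A : Finset (Fin (f r)), A.card = T ∧
      ∀ j ∈ A, N (Sum.inl i) (Sum.inr ⟨r, j⟩))
    (σ : Equiv.Perm (Lt u m f)) (hσ : ∀ x y, N x y → ¬ Same (σ x) (σ y))
    (x : Σ r : Fin m, Fin (f r)) : Own x.1 (σ (Sum.inr x)) := by
  classical
  -- two letters of `I r` are not related
  have hind : ∀ (r : Fin m) (x y), Own r (σ x) → Own r (σ y) → ¬ N x y := fun r x y hx hy h =>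
    hσ x y h ⟨r, hx, hy⟩
  have hle : ∀ r r' : Fin m, r ≤ r' → f r' ≤ f r := by
    intro r r' h
    rcases eq_or_lt_of_le h with h | h
    · rw [h]
    · exact (hf r r' h).le
  have key : ∀ (n : ℕ) (r : Fin m), (r : ℕ) = n → ∀ i : Fin (f r),
      Own r (σ (Sum.inr ⟨r, i⟩)) := by
    intro n
    induction n using Nat.strong_induction_on with
    | _ n ih =>
      intro r hrn i
      have hc := card_own r σ
      have low : ∀ x : Σ r : Fin m, Fin (f r), Own r (σ (Sum.inr x)) → r ≤ x.1 := by
        rintro ⟨r', j'⟩ hj
        by_contra hlt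
        have hlt' : (r' : ℕ) < n := by
          rw [← hrn]
          exact lt_of_not_ge hlt
        have h9 := ih r' hlt' r' rfl j'
        have h10 := own_unique hj h9
        exact hlt (le_of_eq h10)
      -- the class letters of `I r` belong to one class
      have one : ∀ x y : Σ r : Fin m, Fin (f r), Own r (σ (Sum.inr x)) → Own r (σ (Sum.inr y)) →
          x.1 = y.1 := by
        intro x y hx hy
        by_contra hne
        exact hind r _ _ hx hy (hcl x y hne)
      -- no free letter in `I r`
      have ha : ∀ i : Fin u, ¬ Own r (σ (Sum.inl i)) := by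
        intro i hi
        have hF : (univ.filter fun i : Fin u => Own r (σ (Sum.inl i))).card ≤ g := by
          have := Finset.card_le_card_of_injOn
            (s := univ.filter fun i : Fin u => Own r (σ (Sum.inl i)))
            (t := (univ : Finset (Fin g))) grp (fun _ _ => mem_coe.2 (mem_univ _)) (by
              intro i hi j hj h
              by_contra hij
              exact hind r _ _ (mem_filter.1 (mem_coe.1 hi)).2 (mem_filter.1 (mem_coe.1 hj)).2
                (hfr i j hij h))
          rwa [card_univ, Fintype.card_fin] at this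
        have hTr := hTf r
        rcases (univ.filter fun x : Σ r : Fin m, Fin (f r) =>
          Own r (σ (Sum.inr x))).eq_empty_or_nonempty with h | ⟨⟨r', j'⟩, h⟩
        · rw [h, card_empty] at hc
          omega
        · obtain ⟨A, hAc, hA'⟩ := hA i r'
          have h3 : (univ.filter fun x : Σ r : Fin m, Fin (f r) => Own r (σ (Sum.inr x))) ⊆
              Aᶜ.image fun j => (⟨r', j⟩ : Σ r : Fin m, Fin (f r)) := by
            rintro ⟨r₁, j₁⟩ hx
            have h4 := (mem_filter.1 hx).2
            have h5 : r₁ = r' := one _ _ h4 (mem_filter.1 h).2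
            subst h5
            refine mem_image.2 ⟨j₁, mem_compl.2 fun hj => ?_, rfl⟩
            exact hind r _ _ hi h4 (hA' _ hj)
          have h6 := (card_le_card h3).trans card_image_le
          rw [card_compl, Fintype.card_fin, hAc] at h6
          have h7 := hle r r' (low _ (mem_filter.1 h).2)
          have h8 := hTf r'
          omega
      have h0 : (univ.filter fun i : Fin u => Own r (σ (Sum.inl i))) = ∅ :=
        filter_eq_empty_iff.2 fun i _ => ha i
      rw [h0, card_empty, zero_add] at hc
      have hne : (univ.filter fun x : Σ r : Fin m, Fin (f r) =>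
          Own r (σ (Sum.inr x))).Nonempty := by
        rw [← card_pos, hc]
        exact i.pos
      obtain ⟨⟨r', j'⟩, hj'⟩ := hne
      have hj := (mem_filter.1 hj').2
      have hsub : (univ.filter fun x : Σ r : Fin m, Fin (f r) => Own r (σ (Sum.inr x))) ⊆
          univ.image fun j => (⟨r', j⟩ : Σ r : Fin m, Fin (f r)) := by
        rintro ⟨r₁, j₁⟩ hx
        have h4 := (mem_filter.1 hx).2
        have h5 : r₁ = r' := one _ _ h4 hj
        subst h5
        exact mem_image.2 ⟨j₁, mem_univ _, rfl⟩
      have hcr : (univ.image fun j => (⟨r', j⟩ : Σ r : Fin m, Fin (f r))).card = f r' := by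
        rw [card_image_of_injective _ fun x y h => eq_of_heq (Sigma.mk.inj h).2, card_univ,
          Fintype.card_fin]
      have h7 := card_le_card hsub
      rw [hc, hcr] at h7
      have h11 : r' = r := by
        rcases eq_or_lt_of_le (low _ hj) with h | h
        · exact h.symm
        · exact absurd (hf _ _ h) (by simpa using h7)
      subst h11
      have h12 := eq_of_subset_of_card_le hsub (by rw [hcr, hc])
      have h13 : (⟨r', i⟩ : Σ r : Fin m, Fin (f r)) ∈
          univ.filter fun x : Σ r : Fin m, Fin (f r) => Own r' (σ (Sum.inr x)) := by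
        rw [h12]
        exact mem_image.2 ⟨i, mem_univ _, rfl⟩
      exact (mem_filter.1 h13).2
  obtain ⟨r, i⟩ := x
  exact key r r rfl i

end Vale.Agent.P181.RH.H237
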